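import Mathlib
import Vale.Agent.P038.Sampling

namespace Vale.Agent.Results.P038.AlmostTournamentApprox

open Vale.Agent.P038

/-- Approximate Seymour second neighbourhood conjecture for oriented graphs missing few pairs,
with the multiplicative form for linear minimum outdegree. -/
theorem result :
    (∀ ε : ℝ, 0 < ε → ∃ δ : ℝ, 0 < δ ∧
      ∀ (V : Type) [Fintype V] [Nonempty V] (r : V → V → Prop),
        (∀ u v, r u v → ¬ r v u) →
        ((missingPairs r).card : ℝ) ≤ δ * (Fintype.card V : ℝ) ^ 2 →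
        ∃ v, ((out1 r v).card : ℝ) ≤ (out2 r v).card + ε * (Fintype.card V : ℝ)) ∧
    (∀ ε α : ℝ, 0 < ε → 0 < α → ∃ δ : ℝ, 0 < δ ∧
      ∀ (V : Type) [Fintype V] [Nonempty V] (r : V → V → Prop),
        (∀ u v, r u v → ¬ r v u) →
        (∀ v, α * (Fintype.card V : ℝ) ≤ (out1 r v).card) →
        ((missingPairs r).card : ℝ) ≤ δ * (Fintype.card V : ℝ) ^ 2 →
        ∃ v, (1 - ε) * ((out1 r v).card : ℝ) ≤ (out2 r v).card) := by
  refine ⟨fun ε hε => almost_tournament hε, fun ε α hε hα => ?_⟩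
  obtain ⟨δ, hδ, h⟩ := almost_tournament (mul_pos hε hα)
  refine ⟨δ, hδ, fun V _ _ r hasym hdeg hM => ?_⟩
  obtain ⟨v, hv⟩ := h V r hasym hM
  refine ⟨v, ?_⟩
  nlinarith [mul_le_mul_of_nonneg_left (hdeg v) hε.le]

end Vale.Agent.Results.P038.AlmostTournamentApprox
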