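import Mathlib
import Vale.Agent.P038.Sampling

/-!
The second neighbourhood conjecture reduces to almost-tournaments of minimum outdegree close to
half the order, by substituting into a large rotational tournament.
-/

open Finset

namespace Vale.Agent.Results.P038.DenseReduction

open Vale.Agent.P038

theorem result :
    ∀ ε : ℝ, 0 < ε →
      ((∀ (V : Type) [Fintype V] [Nonempty V] (r : V → V → Prop),
          (∀ u v, r u v → ¬ r v u) → ∃ v, (out1 r v).card ≤ (out2 r v).card) ↔
        ∀ (V : Type) [Fintype V] [Nonempty V] (r : V → V → Prop),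
          (∀ u v, r u v → ¬ r v u) →
          (∀ v, (1 / 2 - ε) * (Fintype.card V : ℝ) ≤ (out1 r v).card) →
          ((missingPairs r).card : ℝ) ≤ ε * (Fintype.card V : ℝ) ^ 2 →
          ∃ v, (out1 r v).card ≤ (out2 r v).card) := by
  classical
  intro ε hε
  refine ⟨fun h V _ _ r hr _ _ => h V r hr, fun h V _ _ r hr => ?_⟩
  obtain ⟨k, hk⟩ := exists_nat_gt (1 / ε)
  set m := 2 * k + 1 with hm
  have : NeZero m := ⟨by omega⟩
  have hmε : 1 ≤ ε * (m : ℝ) := by
    have h1 : 1 < ε * k := by rw [div_lt_iff₀ hε] at hk; linarith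
    rw [hm]; push_cast; nlinarith
  let H : ZMod m → ZMod m → Prop := fun i j => 1 ≤ (j - i).val ∧ (j - i).val ≤ k
  have hneg : ∀ i j : ZMod m, i ≠ j → (i - j).val = m - (j - i).val := fun i j hij => by
    have : NeZero (j - i) := ⟨sub_ne_zero.2 (Ne.symm hij)⟩
    rw [← neg_sub j i, ZMod.val_neg_of_ne_zero]
  have hH : ∀ i j, H i j → ¬ H j i := fun i j ⟨h1, h2⟩ ⟨h3, h4⟩ => by
    rcases eq_or_ne i j with rfl | hij
    · simp at h1
    · rw [hneg i j hij] at h4; omega
  have htot : ∀ i j, i ≠ j → H i j ∨ H j i := fun i j hij => by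
    have h1 : 0 < (j - i).val :=
      Nat.pos_of_ne_zero fun h => hij ((sub_eq_zero.1 ((ZMod.val_eq_zero _).1 h)).symm)
    have h2 := ZMod.val_lt (j - i)
    rcases le_or_gt (j - i).val k with h | h
    · exact Or.inl ⟨h1, h⟩
    · right
      show 1 ≤ (i - j).val ∧ (i - j).val ≤ k
      rw [hneg i j hij]; omega
  have hcard : ∀ i, (univ.filter fun j => H i j).card = k := fun i => by
    have e : univ.filter (fun j => H i j) = (Finset.Icc 1 k).image fun t : ℕ => i + (t : ZMod m) := by
      ext j
      simp only [mem_filter, mem_univ, true_and, mem_image, Finset.mem_Icc]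
      refine ⟨fun h => ⟨(j - i).val, h, by rw [ZMod.natCast_rightInverse, add_sub_cancel]⟩, ?_⟩
      rintro ⟨t, ht, rfl⟩
      show 1 ≤ (i + (t : ZMod m) - i).val ∧ _
      rw [add_sub_cancel_left, ZMod.val_cast_of_lt (by omega)]
      exact ht
    rw [e, Finset.card_image_of_injOn ?_, Nat.card_Icc]
    · omega
    · intro a ha b hb hab
      simp only [Finset.coe_Icc, Set.mem_Icc] at ha hb
      have := congrArg ZMod.val (add_left_cancel hab)
      rwa [ZMod.val_cast_of_lt (by omega), ZMod.val_cast_of_lt (by omega)] at this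
  let R : ZMod m × V → ZMod m × V → Prop := fun p q => H p.1 q.1 ∨ (p.1 = q.1 ∧ r p.2 q.2)
  have hirr : ∀ i, ¬ H i i := fun i h => hH i i h h
  have hR : ∀ p q, R p q → ¬ R q p := by
    rintro ⟨i, a⟩ ⟨j, b⟩ (h | ⟨rfl, h⟩) (h' | ⟨h1, h'⟩)
    · exact hH _ _ h h'
    · exact hirr i (by rw [show j = i from h1] at h; exact h)
    · exact hirr _ h'
    · exact hr _ _ h h'
  have hW : Fintype.card (ZMod m × V) = m * Fintype.card V := by simp
  have hout1 : ∀ i a, (out1 R (i, a)).card = k * Fintype.card V + (out1 r a).card := fun i a => by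
    have e : out1 R (i, a) = (univ.filter fun j => H i j) ×ˢ univ ∪ {i} ×ˢ out1 r a := by
      ext ⟨j, b⟩
      simp [out1, R, eq_comm, and_comm]
    rw [e, Finset.card_union_of_disjoint ?_, Finset.card_product, Finset.card_product, hcard]
    · simp
    · rw [Finset.disjoint_left]
      rintro ⟨j, b⟩ h1 h2
      simp only [mem_product, mem_filter, mem_univ, true_and, and_true, mem_singleton] at h1 h2
      exact hirr i (h2.1 ▸ h1)
  have hout2 : ∀ i a, (out2 R (i, a)).card ≤ k * Fintype.card V + (out2 r a).card := fun i a => by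
    have hsub : out2 R (i, a) ⊆
        (univ \ insert i (univ.filter fun j => H i j)) ×ˢ univ ∪ {i} ×ˢ out2 r a := by
      rintro ⟨j, b⟩ h
      simp only [out2, mem_filter, mem_univ, true_and, R, ne_eq, Prod.mk.injEq, not_and,
        not_or] at h
      obtain ⟨hne, ⟨hn1, hn2⟩, ⟨u, c⟩, hu, hu'⟩ := h
      by_cases hij : j = i
      · subst hij
        rcases hu with hu | ⟨rfl, hu⟩
        · rcases hu' with hu' | ⟨rfl, -⟩
          · exact absurd hu' (hH _ _ hu)
          · exact absurd hu (hirr _)
        · rcases hu' with hu' | ⟨-, hu'⟩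
          · exact absurd hu' (hirr _)
          · simp only [mem_union, mem_product, mem_singleton, true_and, out2, mem_filter, mem_univ]
            exact Or.inr ⟨hne rfl, hn2 rfl, c, hu, hu'⟩
      · refine mem_union_left _ ?_
        simp [hij, hn1]
    refine (card_le_card hsub).trans ((card_union_le _ _).trans ?_)
    rw [Finset.card_product, Finset.card_product, card_sdiff_of_subset (subset_univ _),
      card_insert_of_notMem (by simp [hirr]), hcard]
    simp only [card_univ, ZMod.card, card_singleton, one_mul]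
    refine Nat.add_le_add_right (Nat.mul_le_mul_right _ ?_) _
    omega
  have hmiss : (missingPairs R).card ≤ m * (Fintype.card V * Fintype.card V) := by
    refine (card_le_card (t := (univ : Finset (ZMod m × V × V)).image
      fun x => ((x.1, x.2.1), (x.1, x.2.2))) ?_).trans (card_image_le.trans (le_of_eq (by simp)))
    rintro ⟨⟨i, a⟩, ⟨j, b⟩⟩ h
    simp only [missingPairs, mem_filter, mem_univ, true_and, R, not_or] at h
    obtain rfl : i = j := by
      by_contra hij
      rcases htot i j hij with h' | h'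
      · exact h.2.1.1 h'
      · exact h.2.2.1 h'
    exact mem_image.2 ⟨(i, a, b), mem_univ _, rfl⟩
  obtain ⟨⟨i, a⟩, hv⟩ := h (ZMod m × V) R hR (fun p => by
    rw [hW, show (out1 R p).card = _ from hout1 p.1 p.2]
    push_cast
    have hmk : (m : ℝ) = 2 * k + 1 := by rw [hm]; push_cast; ring
    have h0 : (0 : ℝ) ≤ (Fintype.card V : ℝ) := Nat.cast_nonneg _
    have h0' : (0 : ℝ) ≤ ((out1 r p.2).card : ℝ) := Nat.cast_nonneg _
    have h1 : (1 / 2 - ε) * (m : ℝ) ≤ k := by nlinarith
    nlinarith [mul_le_mul_of_nonneg_right h1 h0]) (by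
    rw [hW]
    refine le_trans (Nat.cast_le.2 hmiss) ?_
    push_cast
    have h0 : (0 : ℝ) ≤ (m : ℝ) * (Fintype.card V : ℝ) ^ 2 := by positivity
    nlinarith [mul_le_mul_of_nonneg_left hmε h0])
  refine ⟨a, ?_⟩
  have := hout1 i a
  have := hout2 i a
  omega

end Vale.Agent.Results.P038.DenseReduction
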