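import Mathlib
import Vale.Agent.P038.Tournament
import Vale.Agent.P038.K4Core

/-!
The second neighbourhood conjecture with factor 9/10 for oriented graphs without four pairwise
adjacent vertices, with the exact inequality at vertices of out-degree at most 10.
-/

namespace Vale.Agent.Results.P038.K4FreeNineTenths

open Vale.Agent.P038

theorem result :
    ∀ (V : Type) [Fintype V] [DecidableEq V] (r : V → V → Prop),
      (∀ a b, r a b → ¬ r b a) →
      (∀ a b c e, (r a b ∨ r b a) → (r a c ∨ r c a) → (r a e ∨ r e a) →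
        (r b c ∨ r c b) → (r b e ∨ r e b) → (r c e ∨ r e c) → False) →
      ∀ v : V, (∀ w, (out1 r v).card ≤ (out1 r w).card) →
      ∃ w, (w = v ∨ r v w) ∧ 9 * (out1 r w).card ≤ 10 * (out2 r w).card ∧
        ((out1 r w).card ≤ 10 → (out1 r w).card ≤ (out2 r w).card) := by
  intro V _ _ r hr hk4 v hmin
  by_cases hd : (out1 r v).card = 0
  · exact ⟨v, Or.inl rfl, by omega, by omega⟩
  by_contra hne
  refine K4.not_all_fail hr v hmin (fun w hw => ?_) hk4 (Nat.pos_of_ne_zero hd)
  by_contra hlt
  exact hne ⟨w, hw, by omega, fun h => by omega⟩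

end Vale.Agent.Results.P038.K4FreeNineTenths
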