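import Mathlib
import Vale.Agent.P038.Tournament

/-!
The second neighbourhood conjecture when the out-neighbourhoods near a minimum out-degree vertex
have triangle-free underlying graphs and small codegree.

Suppose every vertex of `{v} ∪ N(v)` fails. Minimise `|P u ∩ P w| + d(u)` over arcs `u → w` inside
`N(v)`, where `P u = N(u) \ N(v)`. Averaging the witnesses `z` over `P u ∩ P w` gives a
contradiction: each back arc `z → y` with `y` inside `N(v)` is paid for by non-adjacent pairs,
which exist by minimality and triangle-freeness.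
-/

open Finset

namespace Vale.Agent.Results.P038.TriangleFreeOutNbhd

open Vale.Agent.P038

theorem gain (s ρ g b du dw : ℕ) (h1 : ρ + g ≤ s) (h2 : s + du ≤ b + g + dw) (h3 : du ≤ g + dw) :
    s * ρ + s * du ≤ (ρ + g) * b + s * dw := by
  obtain ⟨e, rfl⟩ := Nat.exists_eq_add_of_le h1
  have a := Nat.mul_le_mul_left (ρ + g) h2
  have c := Nat.mul_le_mul_left e h3
  simp only [mul_add, add_mul] at a c ⊢
  linarith [Nat.zero_le (g * e)]

theorem balance (s i₁ i₂ ρ₁ ρ₂ N₁ N₂ R₁ R₂ du dw d x : ℕ) (hR₁ : R₁ ≤ i₁ * ρ₁)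
    (hR₂ : R₂ ≤ i₂ * ρ₂) (h₁ : i₁ ≤ s) (h₂ : i₂ ≤ s) (hN₁ : s * ρ₁ ≤ N₁)
    (hN₂ : s * ρ₂ + s * du ≤ N₂ + s * dw) (hx : x < d) (hs : 0 < s)
    (hsum : N₁ + N₂ + s * dw + s * d + s ≤ R₁ + R₂ + (s * du + s * x)) : False := by
  have l₁ := Nat.mul_le_mul_right ρ₁ h₁
  have l₂ := Nat.mul_le_mul_right ρ₂ h₂
  have hsx : s * (x + 1) ≤ s * d := Nat.mul_le_mul_left s hx
  simp only [mul_add, mul_one] at hsx
  linarith

theorem result :
    ∀ (V : Type) [Fintype V] [DecidableEq V] (r : V → V → Prop),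
      (∀ a b, r a b → ¬ r b a) → ∀ v : V,
      (∀ w, (out1 r v).card ≤ (out1 r w).card) →
      (∀ u, (u = v ∨ r v u) → ∀ a b c, r u a → r u b → r u c →
        (r a b ∨ r b a) → (r b c ∨ r c b) → (r a c ∨ r c a) → False) →
      (∀ u, r v u → 3 * (out1 r v ∩ out1 r u).card ≤
        (out1 r v).card + max 1 ((out1 r v).card - (out2 r v).card)) →
      ∃ w, (w = v ∨ r v w) ∧ (out1 r w).card ≤ (out2 r w).card := by
  intro V _ _ r hr v hmin htf hc
  classical
  by_contra hne
  have hfail : ∀ w, (w = v ∨ r v w) → (out2 r w).card < (out1 r w).card :=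
    fun w hw => not_le.1 fun h => hne ⟨w, hw, h⟩
  have hirr : ∀ a, ¬ r a a := fun a h => hr a a h h
  have mem1 : ∀ a b, b ∈ out1 r a ↔ r a b := fun a b => by simp [out1]
  have mem2 : ∀ a b, b ∈ out2 r a ↔ b ≠ a ∧ ¬ r a b ∧ ∃ m, r a m ∧ r m b := fun a b => by
    simp [out2]
  have hx : (out2 r v).card < (out1 r v).card := hfail v (Or.inl rfl)
  have hq : ∀ u, r v u →
      3 * (out1 r v ∩ out1 r u).card + (out2 r v).card ≤ 2 * (out1 r v).card := fun u hu => by
    have := hc u hu
    omega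
  obtain ⟨P, hP⟩ : ∃ P : V → Finset V, ∀ a, P a = out1 r a \ out1 r v :=
    ⟨fun a => out1 r a \ out1 r v, fun _ => rfl⟩
  have memP : ∀ a b, b ∈ P a ↔ r a b ∧ ¬ r v b := fun a b => by simp [hP, mem1]
  have hPX : ∀ u, r v u → P u ⊆ out2 r v := fun u hu z hz => by
    obtain ⟨h1, h2⟩ := (memP u z).1 hz
    exact (mem2 v z).2 ⟨fun h => hr v u hu (h ▸ h1), h2, u, hu, h1⟩
  have hsplit : ∀ u, (P u).card + (out1 r v ∩ out1 r u).card = (out1 r u).card := fun u => by
    rw [hP, inter_comm, card_sdiff_add_card_inter]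
  obtain ⟨u₀, hu₀⟩ : ∃ u, r v u := by
    obtain ⟨u, hu⟩ := card_pos.1 (lt_of_le_of_lt (Nat.zero_le _) hx)
    exact ⟨u, (mem1 v u).1 hu⟩
  have hI : ∀ u, r v u → (out1 r v ∩ out1 r u).Nonempty := fun u hu => by
    refine card_pos.1 ?_
    have := card_le_card (hPX u hu)
    have := hsplit u
    have := hmin u
    omega
  obtain ⟨⟨u, w⟩, huw, hψ⟩ := exists_min_image
    ((univ : Finset (V × V)).filter fun p => r v p.1 ∧ r v p.2 ∧ r p.1 p.2)
    (fun p => (P p.1 ∩ P p.2).card + (out1 r p.1).card) (by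
      obtain ⟨y, hy⟩ := hI u₀ hu₀
      rw [mem_inter, mem1, mem1] at hy
      exact ⟨(u₀, y), by simp [hu₀, hy.1, hy.2]⟩)
  simp only [mem_filter, mem_univ, true_and, and_imp, Prod.forall] at huw hψ
  obtain ⟨hvu, hvw, huw⟩ := huw
  obtain ⟨S, hS⟩ : ∃ S, S = P u ∩ P w := ⟨_, rfl⟩
  have memS : ∀ z, z ∈ S ↔ (r u z ∧ r w z ∧ ¬ r v z) := fun z => by
    simp only [hS, mem_inter, memP]; tauto
  have hSeq : out1 r w ∩ out1 r u = S := by
    ext y
    simp only [mem_inter, mem1, memS]
    refine ⟨fun h => ⟨h.2, h.1, fun hvy => ?_⟩, fun h => ⟨h.2.1, h.1⟩⟩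
    exact htf v (Or.inl rfl) u w y hvu hvw hvy (Or.inl huw) (Or.inl h.1) (Or.inl h.2)
  -- per-witness inequality
  obtain ⟨NE, hNE⟩ : ∃ NE : Finset V → V → Finset V,
      ∀ A z, NE A z = A.filter fun y => ¬ (r z y ∨ r y z) :=
    ⟨fun A z => A.filter fun y => ¬ (r z y ∨ r y z), fun _ _ => rfl⟩
  have hwit : ∀ z ∈ S,
      (NE (P u \ P w) z).card + (NE (P w \ P u) z).card + (out1 r w).card + (out1 r v).card + 1 ≤
      (out1 r z ∩ (out1 r v ∩ out1 r u)).card + (out1 r z ∩ (out1 r v ∩ out1 r w)).card +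
        ((out1 r u).card + (out2 r v).card) := by
    intro z hz
    obtain ⟨huz, hwz, -⟩ := (memS z).1 hz
    have hsub : (out1 r w \ out1 r u) ∪ (out1 r z \ (out1 r u ∪ out1 r w)) ⊆ out2 r u := by
      intro y hy
      simp only [mem_union, mem_sdiff, mem1, not_or] at hy
      rcases hy with ⟨h1, h2⟩ | ⟨h1, h2, -⟩
      · exact (mem2 u y).2 ⟨fun h => hr u w huw (h ▸ h1), h2, w, huw, h1⟩
      · exact (mem2 u y).2 ⟨fun h => hr u z huz (h ▸ h1), h2, z, huz, h1⟩
    have hdisj : Disjoint (out1 r w \ out1 r u) (out1 r z \ (out1 r u ∪ out1 r w)) := by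
      rw [disjoint_left]
      intro y h1 h2
      simp only [mem_union, mem_sdiff, not_or] at h1 h2
      exact h2.2.2 h1.1
    have e1 := card_le_card hsub
    rw [card_union_of_disjoint hdisj] at e1
    have e2 := hfail u (Or.inr hvu)
    have e3 := card_sdiff_add_card_inter (out1 r w) (out1 r u)
    rw [hSeq] at e3
    have e4 := card_sdiff_add_card_inter (out1 r z) (out1 r u ∪ out1 r w)
    have e5 := hmin z
    set T := (P u ∪ P w) \ S with hT
    have e6 : T.card + S.card ≤ (out2 r v).card := by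
      rw [hT, card_sdiff_add_card, union_eq_left.2 (hS ▸ inter_subset_union)]
      exact card_le_card (union_subset (hPX u hvu) (hPX w hvw))
    have e7 : (out1 r z ∩ (out1 r u ∪ out1 r w)).card ≤
        (out1 r z ∩ (out1 r v ∩ out1 r u)).card + (out1 r z ∩ (out1 r v ∩ out1 r w)).card +
          (T.filter fun y => r z y).card := by
      refine (card_le_card ?_).trans ((card_union_le _ _).trans
        (Nat.add_le_add_right (card_union_le _ _) _))
      intro y hy
      simp only [mem_union, mem_inter, mem1] at hy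
      simp only [mem_union, mem_inter, mem_filter, hT, mem_sdiff, mem1, memP, memS]
      obtain ⟨hzy, hy⟩ := hy
      by_cases hvy : r v y
      · tauto
      · refine Or.inr ⟨⟨by tauto, fun h => ?_⟩, hzy⟩
        exact htf u (Or.inr hvu) w z y huw huz h.1 (Or.inl hwz) (Or.inl hzy) (Or.inl h.2.1)
    have e8 : (T.filter fun y => r z y).card +
        ((NE (P u \ P w) z).card + (NE (P w \ P u) z).card) ≤ T.card := by
      rw [← card_union_of_disjoint, ← card_union_of_disjoint]
      · refine card_le_card ?_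
        intro y hy
        simp only [hT, hNE, hS, mem_union, mem_filter, mem_sdiff, mem_inter] at hy ⊢
        tauto
      · rw [disjoint_left]
        intro y h1 h2
        simp only [hNE, mem_union, mem_filter] at h1 h2
        tauto
      · rw [disjoint_left]
        intro y h1 h2
        simp only [hNE, mem_filter, mem_sdiff] at h1 h2
        tauto
    omega
  -- one side of the arc: the back arcs into the out-neighbours of `c` inside `out1 r v`
  have side : ∀ c o, r v c → P c ∩ P o = S → ∃ y ρ g b : ℕ, ∃ z : V,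
      y = (P z).card ∧ r v z ∧ r c z ∧ ρ + g ≤ S.card ∧ b + g = (P c ∩ P z).card ∧
      S.card + y ≤ (out2 r v).card + g ∧
      (∑ t ∈ S, (out1 r t ∩ (out1 r v ∩ out1 r c)).card) ≤ (out1 r v ∩ out1 r c).card * ρ ∧
      (ρ + g) * b ≤ ∑ t ∈ S, (NE (P c \ P o) t).card := by
    intro c o hvc hco
    obtain ⟨z, hz, hzmax⟩ := exists_max_image (out1 r v ∩ out1 r c)
      (fun z => (S.filter fun t => r t z).card) (hI c hvc)
    rw [mem_inter, mem1, mem1] at hz
    obtain ⟨hvz, hcz⟩ := hz
    have hdisj : Disjoint (S.filter fun t => r t z) (S ∩ P z) := by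
      rw [disjoint_left]
      intro t h1 h2
      simp only [mem_filter, mem_inter, memP] at h1 h2
      exact hr t z h1.2 h2.2.1
    refine ⟨_, (S.filter fun t => r t z).card, (S ∩ P z).card,
      ((P c ∩ P z) \ P o).card, z, rfl, hvz, hcz, ?_, ?_, ?_, ?_, ?_⟩
    · rw [← card_union_of_disjoint hdisj]
      exact card_le_card (union_subset (filter_subset _ _) inter_subset_left)
    · rw [show S ∩ P z = (P c ∩ P z) ∩ P o by rw [← hco, inter_right_comm]]
      exact card_sdiff_add_card_inter _ _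
    · have h1 := card_sdiff_add_card_inter S (P z)
      have h2 : (S \ P z).card + (P z).card ≤ (out2 r v).card := by
        rw [card_sdiff_add_card]
        exact card_le_card (union_subset
          ((hS ▸ inter_subset_left).trans (hPX u hvu)) (hPX z hvz))
      omega
    · have h1 := sum_card_bipartiteAbove_eq_sum_card_bipartiteBelow (s := S)
        (t := out1 r v ∩ out1 r c) r
      have h2 : ∀ t, out1 r t ∩ (out1 r v ∩ out1 r c) =
          bipartiteAbove r (out1 r v ∩ out1 r c) t := fun t => by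
        ext y
        simp [bipartiteAbove, mem1, and_comm]
      rw [sum_congr rfl fun t _ => congrArg card (h2 t), h1]
      have h3 := sum_le_card_nsmul (out1 r v ∩ out1 r c)
        (fun y => (bipartiteBelow r S y).card) _ hzmax
      simpa using h3
    · rw [← card_union_of_disjoint hdisj]
      refine le_trans ?_ (sum_le_sum_of_subset
        (union_subset (filter_subset (fun t => r t z) S) (inter_subset_left (s₂ := P z))))
      refine le_of_eq_of_le (smul_eq_mul _ _).symm (card_nsmul_le_sum _ _ _ fun t ht => ?_)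
      refine card_le_card fun y hy => ?_
      simp only [hNE, mem_sdiff, mem_inter, mem_filter, memP] at hy ⊢
      refine ⟨⟨hy.1.1, hy.2⟩, fun hty => ?_⟩
      have htS : t ∈ S := union_subset (filter_subset _ _) inter_subset_left ht
      have hct : r c t := by
        have := hco ▸ htS
        exact ((memP c t).1 (mem_inter.1 this).1).1
      have hzt : r z t ∨ r t z := by
        rcases mem_union.1 ht with h | h
        · exact Or.inr (mem_filter.1 h).2
        · exact Or.inl ((memP z t).1 (mem_inter.1 h).2).1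
      exact htf c (Or.inr hvc) z t y hcz hct hy.1.1.1 hzt hty (Or.inl hy.1.2.1)
  obtain ⟨py, ρ₁, g₁, b₁, y₁, -, hvy₁, huy₁, hρ₁, hb₁, -, hr₁, hn₁⟩ := side u w hvu hS.symm
  obtain ⟨pz, ρ₂, g₂, b₂, y₂, hpz, hvy₂, hwy₂, hρ₂, hb₂, hg₂, hr₂, hn₂⟩ :=
    side w u hvw (by rw [inter_comm, hS])
  have m₁ := hψ u y₁ hvu hvy₁ huy₁
  have m₂ := hψ w y₂ hvw hvy₂ hwy₂
  rw [← hS] at m₁ m₂
  have sumw := sum_le_sum hwit
  simp only [sum_add_distrib, sum_const, smul_eq_mul] at sumw
  have hu := hsplit u
  have hw := hsplit w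
  have hz := hsplit y₂
  have qu := hq u hvu
  have qw := hq w hvw
  have qz := hq y₂ hvy₂
  have du := hmin u
  have dw := hmin w
  have dz := hmin y₂
  have hs : (P u).card + (P w).card ≤ (out2 r v).card + S.card := by
    rw [hS, ← card_union_add_card_inter]
    exact Nat.add_le_add_right (card_le_card (union_subset (hPX u hvu) (hPX w hvw))) _
  have iu := card_pos.2 (hI u hvu)
  have s1 : (out1 r v ∩ out1 r u).card ≤ S.card := by omega
  have s2 : (out1 r v ∩ out1 r w).card ≤ S.card := by omega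
  have s3 : (out1 r u).card ≤ g₂ + (out1 r w).card := by omega
  have k1 := gain S.card ρ₁ g₁ b₁ 0 0 hρ₁ (by omega) (by omega)
  have k2 := gain S.card ρ₂ g₂ b₂ _ _ hρ₂ (by omega) s3
  simp only [mul_zero, add_zero] at k1
  exact balance _ _ _ _ _ _ _ _ _ _ _ _ _ hr₁ hr₂ s1 s2 (k1.trans hn₁)
    (k2.trans (Nat.add_le_add_right hn₂ _)) hx (lt_of_lt_of_le iu s1) (by simpa using sumw)

end Vale.Agent.Results.P038.TriangleFreeOutNbhd
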